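import Mathlib

/-!
# [DE] a function of the big phase space which vanishes on the small phase space, with a bound
for the number of the primitive variables
-/

namespace Vale.Agent.P269.G2

open Finset.HasAntidiagonal (antidiagonal)

/-- **[DE]** a function of the big phase space which is a function of the point of the small
phase space vanishes in the degrees `≤ N0` of the variables `pr` if it does so on the small
phase space. -/
theorem descend_le {n : ℕ} {K : Type*} [CommRing K] [Algebra ℚ K] {β : Type*} [Fintype β]
    (lev : Fin n → ℕ) (i0 : β → Fin n) (hi : ∀ b, lev (i0 b) = 0)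
    (pr : Fin n → Prop) [DecidablePred pr] (N0 : ℕ)
    (w : Fin n → β → MvPowerSeries (Fin n) K) (f : MvPowerSeries (Fin n) K)
    (h : ∀ i, MvPowerSeries.pderiv K i f = ∑ b, w i b * MvPowerSeries.pderiv K (i0 b) f)
    (hw : ∀ i b, ¬ pr i → pr (i0 b) → ∀ γ : Fin n →₀ ℕ, (∀ j, pr j → γ j = 0) →
      MvPowerSeries.coeff γ (w i b) = 0)
    (h0 : ∀ α : Fin n →₀ ℕ, (∀ i, 0 < lev i → α i = 0) →
      ∑ i with pr i, α i ≤ N0 → MvPowerSeries.coeff α f = 0)
    (α : Fin n →₀ ℕ) (hα : ∑ i with pr i, α i ≤ N0) : MvPowerSeries.coeff α f = 0 := by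
  classical
  have hsum : ∀ (γ : Fin n →₀ ℕ) (i : Fin n),
      ∑ j, lev j * ((γ + Finsupp.single i 1 : Fin n →₀ ℕ) j) = ∑ j, lev j * γ j + lev i := by
    intro γ i
    simp only [Finsupp.add_apply, mul_add, Finset.sum_add_distrib]
    congr 1
    rw [Finset.sum_eq_single i]
    · simp
    · intro j _ hj
      rw [Finsupp.single_apply, if_neg (Ne.symm hj), mul_zero]
    · simp
  have hnp : ∀ (γ : Fin n →₀ ℕ) (i : Fin n),
      ∑ j with pr j, ((γ + Finsupp.single i 1 : Fin n →₀ ℕ) j) =
        ∑ j with pr j, γ j + if pr i then 1 else 0 := by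
    intro γ i
    simp only [Finsupp.add_apply, Finset.sum_add_distrib]
    congr 1
    by_cases hp : pr i
    · rw [if_pos hp, Finset.sum_eq_single i]
      · simp
      · intro j _ hj
        rw [Finsupp.single_apply, if_neg (Ne.symm hj)]
      · intro h9
        exact absurd (Finset.mem_filter.2 ⟨Finset.mem_univ _, hp⟩) h9
    · rw [if_neg hp]
      refine Finset.sum_eq_zero fun j hj => ?_
      rw [Finsupp.single_apply, if_neg]
      rintro rfl
      exact hp (Finset.mem_filter.1 hj).2
  have key : ∀ N : ℕ, ∀ α : Fin n →₀ ℕ, ∑ i with pr i, α i ≤ N0 → ∑ i, lev i * α i = N →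
      MvPowerSeries.coeff α f = 0 := by
    intro N
    induction N using Nat.strong_induction_on with
    | _ N ih =>
      intro α hle0 hα
      by_cases hs : ∀ i, 0 < lev i → α i = 0
      · exact h0 α hs hle0
      · push Not at hs
        obtain ⟨i, hl, hαi⟩ := hs
        have hle : Finsupp.single i 1 ≤ α := by
          rw [Finsupp.single_le_iff]
          exact Nat.one_le_iff_ne_zero.2 hαi
        obtain ⟨γ, rfl⟩ : ∃ γ : Fin n →₀ ℕ, α = γ + Finsupp.single i 1 :=
          ⟨α - Finsupp.single i 1, (tsub_add_cancel_of_le hle).symm⟩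
        rw [hsum] at hα
        rw [hnp] at hle0
        have e1 := congrArg (MvPowerSeries.coeff γ) (h i)
        rw [MvPowerSeries.coeff_pderiv, map_sum] at e1
        have e2 : ∀ b, MvPowerSeries.coeff γ
            (w i b * MvPowerSeries.pderiv K (i0 b) f) = 0 := by
          intro b
          rw [MvPowerSeries.coeff_mul]
          refine Finset.sum_eq_zero fun p hp => ?_
          have hp' : p.1 + p.2 = γ := Finset.HasAntidiagonal.mem_antidiagonal.1 hp
          have hadd : ∑ j with pr j, γ j = ∑ j with pr j, p.1 j + ∑ j with pr j, p.2 j := by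
            rw [← hp', ← Finset.sum_add_distrib]
            rfl
          rw [MvPowerSeries.coeff_pderiv]
          by_cases hcase : ¬ pr i ∧ pr (i0 b) ∧ ∑ j with pr j, p.1 j = 0
          · obtain ⟨h1, h2, h3⟩ := hcase
            rw [hw i b h1 h2 p.1 fun j hj => ?_, zero_mul]
            exact Finset.sum_eq_zero_iff.1 h3 j (Finset.mem_filter.2 ⟨Finset.mem_univ _, hj⟩)
          · have hW := hsum p.2 (i0 b)
            rw [hi, add_zero] at hW
            have hW2 : ∑ j, lev j * p.2 j ≤ ∑ j, lev j * γ j := by
              refine Finset.sum_le_sum fun j _ => Nat.mul_le_mul_left _ ?_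
              rw [← hp', Finsupp.add_apply]
              exact Nat.le_add_left _ _
            have hW3 : ∑ j with pr j,
                ((p.2 + Finsupp.single (i0 b) 1 : Fin n →₀ ℕ) j) ≤ N0 := by
              rw [hnp]
              by_cases h1 : pr i <;> by_cases h2 : pr (i0 b) <;>
                simp only [h1, h2, if_true, if_false, not_true, not_false_eq_true, true_and,
                  false_and, and_false] at hcase hle0 ⊢ <;> omega
            rw [ih (∑ j, lev j * p.2 j) (by omega) _ hW3 hW, zero_mul, mul_zero]
        rw [Finset.sum_eq_zero fun b _ => e2 b] at e1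
        have h3 : ((γ i : K) + 1) = algebraMap ℚ K ((γ i : ℚ) + 1) := by simp
        have h4 : ((γ i : ℚ) + 1) ≠ 0 := by positivity
        rw [h3, mul_comm, ← Algebra.smul_def] at e1
        have e3 := congrArg (fun z => ((γ i : ℚ) + 1)⁻¹ • z) e1
        simpa only [smul_smul, inv_mul_cancel₀ h4, one_smul, smul_zero] using e3
  exact key _ α hα rfl

end Vale.Agent.P269.G2
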