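import Mathlib

/-!
# [X2c] the characteristic polynomial at the origin of the primitive directions
-/

namespace Vale.Agent.P269.G2.H980

open Polynomial

/-- the characteristic polynomial of the multiplication by a generator -/
theorem charpoly_eq {R A : Type*} [CommRing R] [Nontrivial R] [CommRing A] [Algebra R A]
    [Module.Free R A] [Module.Finite R A] {n : ℕ} (b : Module.Basis (Fin n) R A) (E : A)
    (hb : ∀ i, b i = E ^ (i : ℕ)) (P : R[X]) (hP : P.Monic) (hdeg : P.natDegree = n)
    (hPE : aeval E P = 0) : LinearMap.charpoly (Algebra.lmul R A E) = P := by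
  set Q := LinearMap.charpoly (Algebra.lmul R A E) with hQ
  have hQm : Q.Monic := LinearMap.charpoly_monic _
  have hQd : Q.natDegree = n := by
    rw [hQ, LinearMap.charpoly_natDegree, Module.finrank_eq_card_basis b, Fintype.card_fin]
  have hQE : aeval E Q = 0 := Algebra.aeval_self_charpoly_lmul E
  have h1 : aeval E (Q - P) = 0 := by rw [map_sub, hQE, hPE, sub_zero]
  rw [← sub_eq_zero]
  have hc : ∀ i : Fin n, (Q - P).coeff i = 0 := by
    have h2 : ∑ i : Fin n, (Q - P).coeff i • b i = 0 := by
      have h3 : (Q - P).natDegree < n ∨ Q - P = 0 := by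
        by_cases h4 : Q - P = 0
        · exact Or.inr h4
        · left
          have h5 : (Q - P).degree < Q.degree := degree_sub_lt_left (by
            rw [degree_eq_natDegree hQm.ne_zero, degree_eq_natDegree hP.ne_zero, hQd, hdeg])
            hQm.ne_zero (by rw [hQm.leadingCoeff, hP.leadingCoeff])
          rw [degree_eq_natDegree h4, degree_eq_natDegree hQm.ne_zero, hQd] at h5
          exact_mod_cast h5
      rcases h3 with h3 | h3
      · rw [aeval_eq_sum_range' h3] at h1
        rw [← h1, ← Fin.sum_univ_eq_sum_range (fun i => (Q - P).coeff i • E ^ i)]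
        exact Finset.sum_congr rfl fun i _ => by rw [hb]
      · simp [h3]
    exact Fintype.linearIndependent_iff.1 b.linearIndependent _ h2
  ext k
  rw [coeff_zero]
  by_cases hk : k < n
  · exact hc ⟨k, hk⟩
  · rw [coeff_sub]
    rcases Nat.lt_or_ge n k with h | h
    · rw [coeff_eq_zero_of_natDegree_lt (by omega), coeff_eq_zero_of_natDegree_lt (by omega),
        sub_zero]
    · have hk' : k = n := by omega
      have e1 : Q.coeff n = 1 := by
        have := hQm.leadingCoeff
        rwa [leadingCoeff, hQd] at this
      have e2 : P.coeff n = 1 := by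
        have := hP.leadingCoeff
        rwa [leadingCoeff, hdeg] at this
      rw [hk', e1, e2, sub_self]

/-- block diagonal form after a change of rings -/
theorem charpoly_block {R S α β : Type*} [CommRing R] [CommRing S] [Fintype α] [DecidableEq α]
    [Fintype β] [DecidableEq β] (f : R →+* S) (M : Matrix (α ⊕ β) (α ⊕ β) R)
    (A : Matrix α α S) (l : S)
    (h11 : ∀ i j, f (M (Sum.inl i) (Sum.inl j)) = A i j)
    (h12 : ∀ i j, f (M (Sum.inl i) (Sum.inr j)) = 0)
    (h22 : ∀ i j, f (M (Sum.inr i) (Sum.inr j)) = if i = j then l else 0) :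
    M.charpoly.map f = A.charpoly * (X - C l) ^ (Fintype.card β) := by
  rw [← Matrix.charpoly_map]
  have h : M.map f = Matrix.fromBlocks A 0 (Matrix.of fun i j => f (M (Sum.inr i) (Sum.inl j)))
      (Matrix.diagonal fun _ => l) := by
    ext i j
    rcases i with i | i <;> rcases j with j | j
    · simp [h11]
    · simp [h12]
    · simp
    · simp [h22, Matrix.diagonal_apply]
  rw [h, Matrix.charpoly_fromBlocks_zero₁₂, Matrix.charpoly_diagonal]
  simp

end Vale.Agent.P269.G2.H980
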