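import Mathlib

/-!
# [X1] the polarised Cayley-Hamilton identity for a self-adjoint and a skew operator
-/

namespace Vale.Agent.P269.G2.H980

open Polynomial
open Finset.HasAntidiagonal (antidiagonal)

section mat

variable {R : Type*} [CommRing R] {n : Type*} [Fintype n] [DecidableEq n]

/-- intertwined matrices have the same characteristic polynomial -/
theorem charpoly_of_intertwine [IsDomain R] (G M N : Matrix n n R) (hG : G.det ≠ 0)
    (h : G * M = N * G) : M.charpoly = N.charpoly := by
  have h1 : (C : R →+* R[X]).mapMatrix G * M.charmatrix =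
      N.charmatrix * (C : R →+* R[X]).mapMatrix G := by
    unfold Matrix.charmatrix
    rw [mul_sub, sub_mul, ← map_mul, ← map_mul, h]
    congr 1
    exact (Matrix.scalar_commute (X : R[X]) (fun r' => Commute.all _ _)
      ((C : R →+* R[X]).mapMatrix G)).eq.symm
  have h2 := congrArg Matrix.det h1
  rw [Matrix.det_mul, Matrix.det_mul, mul_comm] at h2
  have h3 : ((C : R →+* R[X]).mapMatrix G).det ≠ 0 := by
    rw [← RingHom.map_det]
    exact C_ne_zero.2 hG
  exact mul_right_cancel₀ h3 h2

/-- `U + X mu` -/
noncomputable def PM (U mu : Matrix n n R) : Matrix n n R[X] :=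
  U.map C + (X : R[X]) • mu.map C

theorem PM_coeff_zero (U mu : Matrix n n R) (i j : n) : (PM U mu i j).coeff 0 = U i j := by
  simp [PM]

theorem PM_coeff_one (U mu : Matrix n n R) (i j : n) : (PM U mu i j).coeff 1 = mu i j := by
  simp [PM]

/-- the coefficient matrices of the powers -/
theorem pow_coeff_zero (U mu : Matrix n n R) (k : ℕ) (i j : n) :
    ((PM U mu ^ k) i j).coeff 0 = (U ^ k) i j := by
  induction k generalizing i j with
  | zero =>
    rw [pow_zero, pow_zero, Matrix.one_apply, Matrix.one_apply]
    split <;> simp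
  | succ k ih =>
    rw [pow_succ', pow_succ', Matrix.mul_apply, Matrix.mul_apply, finsetSum_coeff]
    refine Finset.sum_congr rfl fun l _ => ?_
    rw [mul_coeff_zero, PM_coeff_zero, ih]

/-- the first difference quotient -/
noncomputable def SS {O : Type*} [Ring O] (U mu : O) (k : ℕ) : O :=
  ∑ e ∈ antidiagonal k, U ^ e.1 * mu * U ^ e.2

theorem SS_succ {O : Type*} [Ring O] (U mu : O) (k : ℕ) :
    SS U mu (k + 1) = U * SS U mu k + mu * U ^ (k + 1) := by
  unfold SS
  rw [Finset.Nat.sum_antidiagonal_succ, pow_zero, one_mul, add_comm, Finset.mul_sum]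
  congr 1
  refine Finset.sum_congr rfl fun e _ => ?_
  rw [pow_succ']
  simp only [mul_assoc]

theorem psi_eq {O : Type*} [Ring O] (U mu : O) (k : ℕ) :
    (∑ e ∈ antidiagonal (k + 1), if e.1 = 0 then 0 else U ^ (e.1 - 1) * mu * U ^ e.2) =
      SS U mu k := by
  unfold SS
  rw [Finset.Nat.sum_antidiagonal_succ]
  simp

theorem pow_coeff_one (U mu : Matrix n n R) (k : ℕ) (i j : n) :
    ((PM U mu ^ (k + 1)) i j).coeff 1 = SS U mu k i j := by
  induction k generalizing i j with
  | zero =>
    rw [zero_add, pow_one, PM_coeff_one]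
    simp [SS]
  | succ k ih =>
    rw [pow_succ' (PM U mu) (k + 1), Matrix.mul_apply, finsetSum_coeff, SS_succ,
      Matrix.add_apply, Matrix.mul_apply, Matrix.mul_apply, ← Finset.sum_add_distrib]
    refine Finset.sum_congr rfl fun l _ => ?_
    rw [mul_coeff_one, PM_coeff_zero, PM_coeff_one, pow_coeff_zero, ih]

theorem matrix_skew [IsDomain R] [CharZero R] (G U mu : Matrix n n R) (hG : G.det ≠ 0)
    (hU : G * U = U.transpose * G) (hmu : G * mu = - (mu.transpose * G)) :
    U.charpoly.sum (fun n c => c • ∑ e ∈ antidiagonal n, if e.1 = 0 then 0 else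
      U ^ (e.1 - 1) * mu * U ^ e.2) = 0 := by
  set p : R[X][X] := (PM U mu).charpoly with hp
  -- the characteristic polynomial is even
  have h1 : ∀ k, (p.coeff k).coeff 1 = 0 := by
    intro k
    have e1 : (PM U mu).map (compRingHom (C (-1 : R) * X)) = U.map C - (X : R[X]) • mu.map C := by
      ext1 i j
      simp [PM, sub_eq_add_neg]
    have e2 : G.map C * PM U mu =
        ((PM U mu).map (compRingHom (C (-1 : R) * X))).transpose * G.map C := by
      have e3 : G.map C * U.map C = (U.map C).transpose * (G.map C : Matrix n n R[X]) := by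
        have := congrArg (C : R →+* R[X]).mapMatrix hU
        rw [map_mul, map_mul] at this
        exact this
      have e4 : G.map C * mu.map C = - ((mu.map C).transpose * (G.map C : Matrix n n R[X])) := by
        have := congrArg (C : R →+* R[X]).mapMatrix hmu
        rw [map_neg, map_mul, map_mul] at this
        exact this
      rw [e1, PM, mul_add, Matrix.transpose_sub, sub_mul, e3, Matrix.mul_smul, e4,
        Matrix.transpose_smul, Matrix.smul_mul, smul_neg, sub_eq_add_neg]
    have e5 : (G.map C : Matrix n n R[X]).det ≠ 0 := by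
      have : (G.map C : Matrix n n R[X]).det = C G.det := (RingHom.map_det C G).symm
      rw [this]
      exact C_ne_zero.2 hG
    have e6 := charpoly_of_intertwine _ _ _ e5 e2
    rw [Matrix.charpoly_transpose, Matrix.charpoly_map] at e6
    have e7 := congrArg (fun q : R[X][X] => (q.coeff k).coeff 1) e6
    simp only [coeff_map, coe_compRingHom_apply, comp_C_mul_X_coeff, pow_one] at e7
    have e8 : (p.coeff k).coeff 1 + (p.coeff k).coeff 1 = 0 := by
      rw [hp]
      nth_rewrite 1 [e7]
      ring
    exact add_self_eq_zero.1 e8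
  have h2 : ∀ k, (p.coeff k).coeff 0 = U.charpoly.coeff k := by
    intro k
    have e1 : (PM U mu).map (constantCoeff (R := R)) = U := by
      ext1 i j
      simp [PM]
    have e2 := Matrix.charpoly_map (PM U mu) (constantCoeff (R := R))
    rw [e1] at e2
    rw [e2, coeff_map]
    rfl
  have h3 := Matrix.aeval_self_charpoly (PM U mu)
  set N := max (p.natDegree + 1) (U.charpoly.natDegree + 1) with hN
  rw [aeval_eq_sum_range' (n := N) (by rw [← hp]; omega)] at h3
  rw [sum_over_range' _ (by simp) N (by omega)]
  ext i j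
  have h4 := congrArg (fun M : Matrix n n R[X] => (M i j).coeff 1) h3
  simp only [Matrix.sum_apply, Matrix.smul_apply, smul_eq_mul, finsetSum_coeff,
    mul_coeff_one, Matrix.zero_apply, coeff_zero] at h4
  rw [Matrix.sum_apply, Matrix.zero_apply]
  refine (Finset.sum_congr rfl fun k _ => ?_).trans h4
  rw [← hp, h1, zero_mul, add_zero, h2, Matrix.smul_apply, smul_eq_mul]
  congr 1
  cases k with
  | zero =>
    rw [pow_zero, Matrix.one_apply]
    split <;> simp [coeff_one]
  | succ k => rw [psi_eq, pow_coeff_one]

end mat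

/-- **[X1]** -/
theorem charpoly_skew {R M : Type*} [CommRing R] [IsDomain R] [CharZero R] [AddCommGroup M]
    [Module R M] [Module.Free R M] [Module.Finite R M] (U mu : Module.End R M)
    (η : M →ₗ[R] M →ₗ[R] R) (hU : ∀ x y, η (U x) y = η x (U y))
    (hnd : ∀ x, (∀ y, η x y = 0) → x = 0) (hmu : ∀ x y, η (mu x) y = - η x (mu y)) :
    (LinearMap.charpoly U).sum (fun n c => c • ∑ e ∈ antidiagonal n, if e.1 = 0 then 0 else
      U ^ (e.1 - 1) * mu * U ^ e.2) = 0 := by
  classical
  set b := Module.Free.chooseBasis R M with hb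
  set G : Matrix _ _ R := Matrix.of fun i j => η (b i) (b j) with hG
  have h1 : ∀ (T : Module.End R M) i j, (LinearMap.toMatrix b b T).transpose i j = 
      b.repr (T (b i)) j := by
    intro T i j
    rw [Matrix.transpose_apply, LinearMap.toMatrix_apply]
  have h2 : ∀ (T : Module.End R M), (LinearMap.toMatrix b b T).transpose * G =
      Matrix.of fun i j => η (T (b i)) (b j) := by
    intro T
    ext i j
    rw [Matrix.mul_apply, Matrix.of_apply]
    conv_rhs => rw [← b.sum_repr (T (b i)), map_sum, LinearMap.sum_apply]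
    refine Finset.sum_congr rfl fun l _ => ?_
    rw [h1, map_smul, LinearMap.smul_apply, smul_eq_mul]
    rfl
  have h3 : ∀ (T : Module.End R M), G * LinearMap.toMatrix b b T =
      Matrix.of fun i j => η (b i) (T (b j)) := by
    intro T
    ext i j
    rw [Matrix.mul_apply, Matrix.of_apply]
    conv_rhs => rw [← b.sum_repr (T (b j)), map_sum]
    refine Finset.sum_congr rfl fun l _ => ?_
    rw [LinearMap.toMatrix_apply, map_smul, smul_eq_mul, mul_comm]
    rfl
  have h4 : G.det ≠ 0 := by
    intro h
    obtain ⟨v, hv, hv2⟩ := Matrix.exists_vecMul_eq_zero_iff.2 h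
    apply hv
    have h5 : ∑ i, v i • b i = 0 := by
      apply hnd
      have h6 : η (∑ i, v i • b i) = 0 := by
        refine b.ext fun j => ?_
        have h7 := congrFun hv2 j
        rw [Matrix.vecMul, dotProduct] at h7
        rw [map_sum, LinearMap.sum_apply, LinearMap.zero_apply]
        simp only [map_smul, LinearMap.smul_apply, smul_eq_mul]
        exact h7
      intro y
      rw [h6, LinearMap.zero_apply]
    have h8 := Fintype.linearIndependent_iff.1 b.linearIndependent v h5
    funext i
    exact h8 i
  have h5 := matrix_skew G (LinearMap.toMatrix b b U) (LinearMap.toMatrix b b mu) h4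
    (by rw [h2, h3]; ext i j; simp [hU]) (by rw [h2, h3]; ext i j; simp [hmu])
  rw [LinearMap.charpoly_toMatrix] at h5
  have h6 : LinearMap.toMatrix b b ((LinearMap.charpoly U).sum (fun n c => c •
      ∑ e ∈ antidiagonal n, if e.1 = 0 then 0 else U ^ (e.1 - 1) * mu * U ^ e.2)) = 0 := by
    rw [← h5, Polynomial.sum, Polynomial.sum, map_sum]
    refine Finset.sum_congr rfl fun k _ => ?_
    rw [map_smul, map_sum]
    congr 1
    refine Finset.sum_congr rfl fun e _ => ?_
    by_cases he : e.1 = 0
    · rw [if_pos he, if_pos he, map_zero]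
    · rw [if_neg he, if_neg he, LinearMap.toMatrix_mul, LinearMap.toMatrix_mul,
        LinearMap.toMatrix_pow, LinearMap.toMatrix_pow]
  exact (LinearEquiv.map_eq_zero_iff _).1 h6

end Vale.Agent.P269.G2.H980
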