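import Vale.Agent.P269.G2.H980.Sr

/-!
# [DB5] topological recursion in genus one at a general point of the big phase space
-/

namespace Vale.Agent.P269.G2.H980.DB3

open Finset.HasAntidiagonal (antidiagonal)
open Vale.Agent.P269.CI
open Vale.Agent.P269.G1 (toSer Sym)

variable {X : CompleteIntersection} {n : ℕ} (E : Fam X n) {F : ℕ → ℕ → List (Ins X) → ℂ}

theorem CB_apply (x : Ix X → RB n) (c b : Ix X) : CB E F x c b = ∑ j, x j * ∑ a : Ix X,
    pairingInv X a c • sr E (cor F 0 [(j, 0), (b, 0), (a, 0)]) := rfl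

/-- the trace of quantum multiplication -/
theorem strB_CB (hF : IsGW X F) (he : Even X.dim) (x : Ix X → RB n) :
    strB X n (CB E F x) = ∑ i, x i * ∑ α, ∑ β, pairingInv X α β •
      sr E (cor F 0 [(i, 0), (α, 0), (β, 0)]) := by
  change ∑ b, CB E F x b b = _
  simp only [CB_apply]
  rw [Finset.sum_comm]
  refine Finset.sum_congr rfl fun j _ => ?_
  rw [← Finset.mul_sum]
  congr 1
  rw [Finset.sum_comm]
  refine Finset.sum_congr rfl fun a _ => Finset.sum_congr rfl fun b _ => ?_
  congr 1
  exact srcor_swap E hF he 0 [(j, 0)] [] (b, 0) (a, 0)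

theorem GB_apply (x : Ix X → RB n) :
    GB E F x = ∑ j, x j * sr E (cor F 1 [(j, 0)]) := rfl

theorem rat_smul (f : RB n) : (1 / 24 : ℂ) • f = (1 / 24 : ℚ) • f := by
  have h := Rat.cast_smul_eq_qsmul ℂ (1 / 24 : ℚ) f
  rw [← h]
  congr 1
  push_cast
  rfl

/-- **[DB5']** the same for an arbitrary level -/
theorem cor_one_lev (hF : IsGW X F) (he : Even X.dim) (h1 : Trr1 F) (b : Ix X) (m : ℕ) :
    sr E (cor F 1 [(b, m)]) = GB E F (fun c => SB E F m c b) +
      if m = 0 then 0 else (1 / 24 : ℚ) • strB X n (CB E F fun c => SB E F (m - 1) c b) := by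
  cases m with
  | zero =>
    rw [if_pos rfl, add_zero, GB_apply, Finset.sum_eq_single b]
    · rw [SB_zero_apply, if_pos rfl, one_mul]
    · intro j _ hj
      rw [SB_zero_apply, if_neg hj, zero_mul]
    · simp
  | succ m =>
    rw [if_neg (Nat.succ_ne_zero m), Nat.add_sub_cancel]
    have h2 : sr E (cor F 1 [(b, m + 1)]) =
        (∑ α, ∑ β, pairingInv X α β • (sr E (cor F 0 [(b, m), (α, 0)]) *
          sr E (cor F 1 [(β, 0)]))) +
        (1 / 24 : ℂ) • ∑ α, ∑ β, pairingInv X α β •
          sr E (cor F 0 [(b, m), (α, 0), (β, 0)]) := by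
      have e2 : ∀ α β, pairingInv X α β • (sr E (cor F 0 [(b, m), (α, 0)]) *
          sr E (cor F 1 [(β, 0)])) = sr E (fun d L => pairingInv X α β *
            mulS (cor F 0 [(b, m), (α, 0)]) (cor F 1 [(β, 0)]) d L) := by
        intro α β
        rw [← sr_mulS E he _ _ (symF_cor E hF he 0 _) (symF_cor E hF he 1 _), sr_smul]
      have e3 : ∀ α β, pairingInv X α β • sr E (cor F 0 [(b, m), (α, 0), (β, 0)]) =
          sr E (fun d L => pairingInv X α β *
            cor F 0 [(b, m), (α, 0), (β, 0)] d L) := by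
        intro α β
        rw [sr_smul]
      simp only [e2, e3]
      simp only [← sr_sum]
      rw [← sr_smul, ← sr_add]
      refine sr_congr E fun d L => ?_
      exact h1 d b m (L.map E.e)
    rw [h2, rat_smul]
    congr 1
    · rw [Finset.sum_comm, GB_apply]
      refine Finset.sum_congr rfl fun k _ => ?_
      rw [SB_succ_apply, Finset.sum_mul]
      refine Finset.sum_congr rfl fun c _ => ?_
      rw [smul_mul_assoc]
      rfl
    · congr 1
      rw [strB_CB E hF he]
      simp only [trrS_big E hF he b m, Finset.smul_sum, Finset.mul_sum]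
      have h6 : ∀ f : Ix X → Ix X → Ix X → RB n,
          ∑ α, ∑ β, ∑ i, f α β i = ∑ i, ∑ α, ∑ β, f α β i := by
        intro f
        rw [Finset.sum_congr rfl fun α _ => Finset.sum_comm (f := fun β i => f α β i)]
        exact Finset.sum_comm
      rw [h6]
      refine Finset.sum_congr rfl fun i _ => Finset.sum_congr rfl fun α _ =>
        Finset.sum_congr rfl fun β _ => ?_
      rw [mul_smul_comm]

/-- **[DB5]** topological recursion in genus one -/
theorem cor_one_big (hF : IsGW X F) (he : Even X.dim) (h1 : Trr1 F) (i : Fin n) :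
    sr E (cor F 1 [E.e i]) = GB E F (wB E F i 0) +
      (1 / 24 : ℚ) • strB X n (CB E F (wB E F i 1)) := by
  have h0 : wB E F i 0 = fun c => SB E F (E.e i).2 c (E.e i).1 := by
    funext c
    unfold wB
    rw [if_pos (Nat.zero_le _), Nat.sub_zero]
  have h2 := cor_one_lev E hF he h1 (E.e i).1 (E.e i).2
  have h3 : E.e i = ((E.e i).1, (E.e i).2) := rfl
  rw [h0]
  rw [← h3] at h2
  rw [h2]
  congr 1
  by_cases hm : (E.e i).2 = 0
  · rw [if_pos hm]
    have h4 : wB E F i 1 = 0 := by
      funext c
      unfold wB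
      rw [if_neg (by omega)]
      rfl
    rw [h4, map_zero, map_zero, smul_zero]
  · rw [if_neg hm]
    have h4 : wB E F i 1 = fun c => SB E F ((E.e i).2 - 1) c (E.e i).1 := by
      funext c
      unfold wB
      rw [if_pos (by omega)]
    rw [h4]

end Vale.Agent.P269.G2.H980.DB3
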