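import Vale.Agent.P269.G2.H980.Sr

/-!
# [DB3] the string equation on the big phase space, even dimension
-/

namespace Vale.Agent.P269.G2.H980.DB3

open Finset.HasAntidiagonal (antidiagonal)
open Vale.Agent.P269.CI
open Vale.Agent.P269.H597 (coh Coh)
open Vale.Agent.P269.G1 (toSer Sym lst shf)
open Vale.Agent.P269.G1.H440 (dlt sym_dlt toSer_dlt shf_dlt toSer_zero' toSer_sum toSer_entries)

variable {X : CompleteIntersection} {n : ℕ} (E : Fam X n) {F : ℕ → ℕ → List (Ins X) → ℂ}

theorem lowerSum_cons' (T : Ix X → Ix X → ℂ) (G : List (Ins X) → ℂ) (x : Ins X)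
    (L : List (Ins X)) : lowerSum X T G (x :: L) =
      (if x.2 = 0 then 0 else ∑ b, T x.1 b * G ((b, x.2 - 1) :: L)) +
        lowerSum X T (fun M => G (x :: M)) L := by
  unfold lowerSum
  exact Fin.sum_univ_succ (n := L.length) _

/-- an even insertion at position `j` can be moved to the front -/
theorem set_front (hF : IsGW X F) (he : Even X.dim) (g d : ℕ) (x : Ins X)
    (Q M : List (Ins X)) (j : ℕ) (hj : j < M.length) :
    F g d (Q ++ M.set j x) = F g d (x :: (Q ++ M.eraseIdx j)) := by
  rw [List.set_eq_take_append_cons_drop, if_pos hj, List.eraseIdx_eq_take_drop_succ]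
  have h := G1.H598.move_even hF g d x (par_even he x.1) (Q ++ M.take j) [] (M.drop (j + 1))
  simpa using h

/-- `lowerSum` over a list of insertions of the family -/
theorem lowerSum_ins (hF : IsGW X F) (he : Even X.dim) (g d : ℕ) (Q : List (Ins X))
    (L : List (Fin n)) :
    lowerSum X (fun a b => if a = b then 1 else 0) (fun M => F g d (Q ++ M)) (L.map E.e) =
      ∑ j : Fin L.length, if (E.e (L.get j)).2 = 0 then 0 else
        F g d (((E.e (L.get j)).1, (E.e (L.get j)).2 - 1) ::
          (Q ++ (L.eraseIdx j).map E.e)) := by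
  unfold lowerSum
  have hlen : (L.map E.e).length = L.length := List.length_map _
  refine Fintype.sum_equiv (finCongr hlen) _ _ fun j => ?_
  have hj : (j : ℕ) < L.length := by rw [← hlen]; exact j.isLt
  have e1 : (L.map E.e).get j = E.e (L.get (finCongr hlen j)) := by
    simp
  rw [e1]
  by_cases hz : (E.e (L.get (finCongr hlen j))).2 = 0
  · rw [if_pos hz, if_pos hz]
  · rw [if_neg hz, if_neg hz, Finset.sum_eq_single (E.e (L.get (finCongr hlen j))).1]
    · beta_reduce
      rw [if_pos rfl, one_mul]
      have h3 := set_front hF he g d ((E.e (L.get (finCongr hlen j))).1,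
        (E.e (L.get (finCongr hlen j))).2 - 1) Q (L.map E.e) j j.isLt
      have h4 : (L.map E.e).eraseIdx j = (L.eraseIdx (finCongr hlen j)).map E.e := by
        rw [List.eraseIdx_map]
        rfl
      rw [h4] at h3
      exact h3
    · intro c _ hc
      beta_reduce
      rw [if_neg (Ne.symm hc), zero_mul]
    · simp

theorem lowerSum_prefix (hF : IsGW X F) (he : Even X.dim) (g d : ℕ) (L : List (Fin n))
    (Q : List (Ins X)) (hQ : ∀ x ∈ Q, x.2 = 0) : ∀ Q0 : List (Ins X),
    lowerSum X (fun a b => if a = b then 1 else 0) (fun M => F g d (Q0 ++ M)) (Q ++ L.map E.e) =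
      ∑ j : Fin L.length, if (E.e (L.get j)).2 = 0 then 0 else
        F g d (((E.e (L.get j)).1, (E.e (L.get j)).2 - 1) ::
          ((Q0 ++ Q) ++ (L.eraseIdx j).map E.e)) := by
  induction Q with
  | nil =>
    intro Q0
    rw [List.nil_append, List.append_nil]
    exact lowerSum_ins E hF he g d Q0 L
  | cons q Q ih =>
    intro Q0
    have hq : q.2 = 0 := hQ q (by simp)
    have ih' := ih (fun x hx => hQ x (by simp [hx])) (Q0 ++ [q])
    rw [List.cons_append, lowerSum_cons', if_pos hq, zero_add]
    simp only [List.append_assoc, List.cons_append, List.nil_append] at ih' ⊢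
    exact ih'

/-- the coefficients of the lowered insertion `k` -/
noncomputable def lowK (F : ℕ → ℕ → List (Ins X) → ℂ) (g : ℕ) (Q : List (Ins X)) (k : Fin n)
    (M : List (Fin n)) : PowerSeries ℂ :=
  PowerSeries.mk fun d => if (E.e k).2 = 0 then 0 else
    F g d (((E.e k).1, (E.e k).2 - 1) :: (Q ++ M.map E.e))

theorem sym_lowK (hF : IsGW X F) (he : Even X.dim) (g : ℕ) (Q : List (Ins X)) (k : Fin n) :
    Sym (lowK E F g Q k) := by
  intro L M h
  unfold lowK
  ext d
  rw [PowerSeries.coeff_mk, PowerSeries.coeff_mk]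
  by_cases hz : (E.e k).2 = 0
  · rw [if_pos hz, if_pos hz]
  · rw [if_neg hz, if_neg hz]
    exact symF_cor E hF he g (((E.e k).1, (E.e k).2 - 1) :: Q) d L M h

theorem toSer_lowK (g : ℕ) (Q : List (Ins X)) (k : Fin n) : toSer (lowK E F g Q k) =
    if (E.e k).2 = 0 then 0 else
      sr E (cor F g (((E.e k).1, (E.e k).2 - 1) :: Q)) := by
  by_cases hz : (E.e k).2 = 0
  · rw [if_pos hz]
    have : lowK E F g Q k = fun _ => 0 := by
      funext M
      unfold lowK
      ext d
      rw [PowerSeries.coeff_mk, if_pos hz, map_zero]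
    rw [this, toSer_zero']
  · rw [if_neg hz]
    unfold sr
    congr 1
    funext M
    unfold lowK
    ext d
    rw [PowerSeries.coeff_mk, PowerSeries.coeff_mk, if_neg hz]
    rfl

/-- the string equation on the big phase space, genus zero, insertions of level zero -/
theorem string_big (hF : IsGW X F) (he : Even X.dim) (Q : List (Ins X))
    (hQ : ∀ x ∈ Q, x.2 = 0) :
    sr E (cor F 0 ((one X, 0) :: Q)) =
      (∑ k, MvPowerSeries.X k * if (E.e k).2 = 0 then 0 else
        sr E (cor F 0 (((E.e k).1, (E.e k).2 - 1) :: Q))) +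
      toSer (fun L => PowerSeries.mk fun d =>
        if d = 0 then pairTerm X (pairing X) (Q ++ L.map E.e) else 0) := by
  have h1 : sr E (cor F 0 ((one X, 0) :: Q)) =
      toSer (fun L => ∑ j : Fin L.length, lowK E F 0 Q (L.get j) (L.eraseIdx j)) +
      toSer (fun L => PowerSeries.mk fun d =>
        if d = 0 then pairTerm X (pairing X) (Q ++ L.map E.e) else 0) := by
    unfold sr
    rw [← G1.H598.toSer_add']
    congr 1
    funext L
    ext d
    rw [PowerSeries.coeff_mk, map_add, PowerSeries.coeff_mk, map_sum]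
    have h2 := hF.string 0 d (Q ++ L.map E.e)
    have h3 := lowerSum_prefix E hF he 0 d L Q hQ []
    simp only [List.nil_append] at h3
    change F 0 d ((one X, 0) :: (Q ++ L.map E.e)) = _
    rw [h2, h3]
    congr 1
    · refine Finset.sum_congr rfl fun j _ => ?_
      unfold lowK
      rw [PowerSeries.coeff_mk]
    · by_cases hd : d = 0
      · rw [if_pos hd, if_pos ⟨rfl, hd⟩]
      · rw [if_neg hd, if_neg fun h => hd h.2]
  rw [h1, toSer_entries _ (sym_lowK E hF he 0 Q)]
  simp only [toSer_lowK]

/-- a constant supported on the empty list -/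
noncomputable def cK (c : ℂ) (M : List (Fin n)) : PowerSeries ℂ :=
  PowerSeries.mk fun d => if d = 0 ∧ M.map E.e = [] then c else 0

theorem sym_cK (c : ℂ) : Sym (cK E c) := by
  intro L M h
  unfold cK
  have : L.map E.e = [] ↔ M.map E.e = [] := by
    rw [List.map_eq_nil_iff, List.map_eq_nil_iff]
    constructor
    · rintro rfl
      exact List.nil_perm.1 h
    · rintro rfl
      exact List.perm_nil.1 h
  simp only [this]

theorem toSer_cK (c : ℂ) : toSer (cK E c) = cb n c := sr_const E c

/-- the pairing term with one insertion -/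
theorem pair_one (a : Ix X) : toSer (fun L => PowerSeries.mk fun d =>
      if d = 0 then pairTerm X (pairing X) ((a, 0) :: L.map E.e) else 0) =
    ∑ k, MvPowerSeries.X k * cb n (if (E.e k).2 = 0 then pairing X a (E.e k).1 else 0) := by
  have h1 := toSer_entries (fun k => cK E (if (E.e k).2 = 0 then
    pairing X a (E.e k).1 else 0)) (fun k => sym_cK E _)
  simp only [toSer_cK] at h1
  rw [← h1]
  congr 1
  funext L
  ext d
  rw [PowerSeries.coeff_mk, map_sum]
  match L with
  | [] => simp [pairTerm]
  | [k] =>
    have e1 : (∑ j : Fin [k].length, (PowerSeries.coeff d) (cK E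
        (if (E.e ([k].get j)).2 = 0 then pairing X a (E.e ([k].get j)).1 else 0)
        ([k].eraseIdx j))) = (PowerSeries.coeff d) (cK E
        (if (E.e k).2 = 0 then pairing X a (E.e k).1 else 0) []) := by
      exact Fin.sum_univ_one _
    rw [e1]
    unfold cK
    rw [PowerSeries.coeff_mk]
    by_cases hd : d = 0
    · subst hd
      simp only [if_true, List.map_nil, and_self, List.map_cons]
      have hi : E.e k = ((E.e k).1, (E.e k).2) := rfl
      by_cases hz : (E.e k).2 = 0
      · rw [if_pos hz, hi, hz]
        rfl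
      · rw [if_neg hz]
        obtain ⟨m, hm⟩ := Nat.exists_eq_succ_of_ne_zero hz
        rw [hi, hm]
        rfl
    · simp [hd]
  | k :: l :: L =>
    have e1 : ∀ j : Fin (k :: l :: L).length, (PowerSeries.coeff d) (cK E
        (if (E.e ((k :: l :: L).get j)).2 = 0 then
          pairing X a (E.e ((k :: l :: L).get j)).1 else 0)
        ((k :: l :: L).eraseIdx j)) = 0 := by
      intro j
      unfold cK
      rw [PowerSeries.coeff_mk, if_neg]
      rintro ⟨_, h⟩
      rw [List.map_eq_nil_iff] at h
      have := congrArg List.length h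
      rw [List.length_eraseIdx] at this
      simp only [List.length_cons, List.length_nil] at this
      split_ifs at this <;> omega
    rw [Finset.sum_eq_zero fun j _ => e1 j]
    simp [pairTerm]

/-- the pairing term with two insertions -/
theorem pair_two (a b : Ix X) : toSer (fun L => PowerSeries.mk fun d =>
      if d = 0 then pairTerm X (pairing X) ((a, 0) :: (b, 0) :: L.map E.e) else 0) =
    cb n (pairing X a b) := by
  rw [← toSer_cK E]
  congr 1
  funext L
  unfold cK
  ext d
  rw [PowerSeries.coeff_mk, PowerSeries.coeff_mk]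
  cases L with
  | nil => simp [pairTerm]
  | cons k L => simp [pairTerm]

/-- the string equation, differentiated twice -/
theorem g_one_cor (hF : IsGW X F) (he : Even X.dim) (a b : Ix X) :
    ∑ j, gB E F 1 j * sr E (cor F 0 [(j, 0), (a, 0), (b, 0)]) = cb n (pairing X a b) := by
  have hQ : ∀ x ∈ [((a, 0) : Ins X), (b, 0)], x.2 = 0 := by
    intro x hx
    rcases List.mem_cons.1 hx with h | h
    · rw [h]
    · rcases List.mem_cons.1 h with h | h
      · rw [h]
      · simp at h
  have h2 := string_big E hF he [(a, 0), (b, 0)] hQ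
  have h3 := pair_two E a b
  simp only [List.cons_append, List.nil_append] at h2
  rw [h3] at h2
  have h4 : ∀ j, gB E F 1 j * sr E (cor F 0 [(j, 0), (a, 0), (b, 0)]) =
      SB E F 0 j (one X) * sr E (cor F 0 [(j, 0), (a, 0), (b, 0)]) -
      ∑ i, MvPowerSeries.X i * (wB E F i 1 j * sr E (cor F 0 [(j, 0), (a, 0), (b, 0)])) := by
    intro j
    unfold gB
    rw [if_pos le_rfl, Nat.sub_self, sub_mul, Finset.sum_mul]
    congr 1
    exact Finset.sum_congr rfl fun i _ => mul_assoc _ _ _
  rw [Finset.sum_congr rfl fun j _ => h4 j, Finset.sum_sub_distrib,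
    ← trrS_big E hF he (one X) 0 (a, 0) (b, 0), Finset.sum_comm]
  have h5 : ∀ i : Fin n, ∑ j, MvPowerSeries.X i * (wB E F i 1 j *
      sr E (cor F 0 [(j, 0), (a, 0), (b, 0)])) = MvPowerSeries.X i *
        if (E.e i).2 = 0 then 0 else
          sr E (cor F 0 [((E.e i).1, (E.e i).2 - 1), (a, 0), (b, 0)]) := by
    intro i
    rw [← Finset.mul_sum]
    congr 1
    by_cases hz : (E.e i).2 = 0
    · rw [if_pos hz]
      refine Finset.sum_eq_zero fun j _ => ?_
      unfold wB
      rw [if_neg (by omega), zero_mul]
    · rw [if_neg hz, trrS_big E hF he]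
      refine Finset.sum_congr rfl fun j _ => ?_
      unfold wB
      rw [if_pos (by omega)]
  rw [Finset.sum_congr rfl fun i _ => h5 i, h2, add_sub_cancel_left]

theorem pairing_symm (he : Even X.dim) (a b : Ix X) : pairing X a b = pairing X b a := by
  have h := (coh X).eta_symm a b
  change pairing X a b = H597.sg ℂ (par X a) (par X b) * pairing X b a at h
  rw [h, par_even he, par_even he]
  exact one_mul _

theorem inv_pair (he : Even X.dim) (b c : Ix X) :
    ∑ a, pairingInv X a c * pairing X b a = if b = c then 1 else 0 := by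
  have h : ∑ a, pairing X b a * pairingInv X a c = if b = c then 1 else 0 :=
    (coh X).eta_inv b c
  rw [← h]
  exact Finset.sum_congr rfl fun a _ => mul_comm _ _

/-- **[DB3]** string equation, differentiated once -/
theorem g_zero (hF : IsGW X F) (he : Even X.dim) : gB E F 0 = 0 := by
  funext c
  change (if 0 ≤ 1 then SB E F (1 - 0) c (one X) else 0) -
    ∑ i, MvPowerSeries.X i * wB E F i 0 c = 0
  rw [if_pos (by omega), sub_eq_zero]
  change SB E F 1 c (one X) = _
  rw [SB_succ_apply]
  have h2 : ∀ a : Ix X, VB E F (one X, 0) (a, 0) =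
      ∑ k, MvPowerSeries.X k * (if (E.e k).2 = 0 then
        cb n (pairing X a (E.e k).1) else
          VB E F ((E.e k).1, (E.e k).2 - 1) (a, 0)) := by
    intro a
    have h3 := string_big E hF he [(a, 0)] (by simp)
    have h4 := pair_one E a
    simp only [List.cons_append, List.nil_append] at h3
    rw [h4, ← Finset.sum_add_distrib] at h3
    change sr E (cor F 0 [(one X, 0), (a, 0)]) = _
    rw [h3]
    refine Finset.sum_congr rfl fun k _ => ?_
    rw [← mul_add]
    congr 1
    by_cases hz : (E.e k).2 = 0
    · rw [if_pos hz, if_pos hz, if_pos hz, zero_add]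
    · rw [if_neg hz, if_neg hz, if_neg hz, cb_zero, add_zero]
      rfl
  simp only [h2, Finset.smul_sum]
  rw [Finset.sum_comm]
  refine Finset.sum_congr rfl fun k _ => ?_
  have h5 : ∀ a : Ix X, pairingInv X a c •
      ((MvPowerSeries.X k : RB n) * (if (E.e k).2 = 0 then
        cb n (pairing X a (E.e k).1) else
          VB E F ((E.e k).1, (E.e k).2 - 1) (a, 0))) =
      (MvPowerSeries.X k : RB n) * (pairingInv X a c •
        (if (E.e k).2 = 0 then
        cb n (pairing X a (E.e k).1) else
          VB E F ((E.e k).1, (E.e k).2 - 1) (a, 0))) := by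
    intro a
    rw [mul_smul_comm]
  rw [Finset.sum_congr rfl fun a _ => h5 a, ← Finset.mul_sum]
  congr 1
  unfold wB
  rw [if_pos (Nat.zero_le _), Nat.sub_zero]
  rcases hm : (E.e k).2 with _ | m
  · rw [SB_zero_apply]
    simp only [if_true, smul_RB, ← cb_mul]
    rw [← cb_sum]
    have h7 : ∀ l : Ix X, pairingInv X l c * pairing X l (E.e k).1 =
        pairingInv X l c * pairing X (E.e k).1 l := by
      intro l
      rw [pairing_symm he]
    rw [Finset.sum_congr rfl fun l _ => h7 l, inv_pair he]
    by_cases hc : (E.e k).1 = c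
    · rw [if_pos hc, if_pos hc.symm, cb_one]
    · rw [if_neg hc, if_neg (fun h => hc h.symm), cb_zero]
  · rw [SB_succ_apply]
    simp only [Nat.succ_ne_zero, if_false, Nat.add_sub_cancel]

/-- **[DB3]** string equation, differentiated twice -/
theorem CB_g (hF : IsGW X F) (he : Even X.dim) : CB E F (gB E F 1) = 1 := by
  refine Matrix.ext fun c b => ?_
  change ∑ j, gB E F 1 j * ∑ a : Ix X,
    pairingInv X a c • sr E (cor F 0 [(j, 0), (b, 0), (a, 0)]) =
      (1 : Matrix (Ix X) (Ix X) (RB n)) c b
  have h2 : ∀ j, gB E F 1 j * ∑ a : Ix X,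
      pairingInv X a c • sr E (cor F 0 [(j, 0), (b, 0), (a, 0)]) =
      ∑ a : Ix X, pairingInv X a c •
        (gB E F 1 j * sr E (cor F 0 [(j, 0), (b, 0), (a, 0)])) := by
    intro j
    rw [Finset.mul_sum]
    exact Finset.sum_congr rfl fun a _ => mul_smul_comm _ _ _
  rw [Finset.sum_congr rfl fun j _ => h2 j, Finset.sum_comm]
  simp only [← Finset.smul_sum]
  simp only [g_one_cor E hF he, smul_RB, ← cb_mul]
  rw [← cb_sum, inv_pair he, Matrix.one_apply]
  by_cases hc : b = c
  · rw [if_pos hc, if_pos hc.symm, cb_one]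
  · rw [if_neg hc, if_neg (fun h => hc h.symm), cb_zero]

end Vale.Agent.P269.G2.H980.DB3
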