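import Mathlib

/-!
# [X2] the Leibniz rule at the origin of the primitive directions
-/

namespace Vale.Agent.P269.G2.H980

section

variable {R S ι : Type*} [CommRing R] [CommRing S] (D : ι → R → R) (ev : R →+* S)

/-- iterated derivatives -/
def DL : List ι → R → R
  | [], f => f
  | c :: w, f => DL w (D c f)

/-- the iterated derivatives of order less than `N` in the directions `P` vanish -/
def Ord (P : ι → Prop) (N : ℕ) (f : R) : Prop :=
  ∀ w : List ι, (∀ c ∈ w, P c) → w.length < N → ev (DL D w f) = 0

variable {D ev} {P : ι → Prop}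

theorem DL_add (hadd : ∀ i f g, D i (f + g) = D i f + D i g) (w : List ι) :
    ∀ f g, DL D w (f + g) = DL D w f + DL D w g := by
  induction w with
  | nil => intro f g; rfl
  | cons c w ih => intro f g; rw [DL, hadd, ih]; rfl

theorem D_zero (hadd : ∀ i f g, D i (f + g) = D i f + D i g) (i : ι) : D i 0 = 0 := by
  have h := hadd i 0 0
  rw [add_zero] at h
  exact left_eq_add.1 h

theorem DL_zero (hadd : ∀ i f g, D i (f + g) = D i f + D i g) (w : List ι) :
    DL D w 0 = 0 := by
  induction w with
  | nil => rfl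
  | cons c w ih => rw [DL, D_zero hadd, ih]

theorem DL_sum {σ : Type*} (hadd : ∀ i f g, D i (f + g) = D i f + D i g) (w : List ι)
    (s : Finset σ) (f : σ → R) : DL D w (∑ x ∈ s, f x) = ∑ x ∈ s, DL D w (f x) := by
  classical
  induction s using Finset.induction_on with
  | empty => simp [DL_zero hadd]
  | insert a s ha ih => rw [Finset.sum_insert ha, Finset.sum_insert ha, DL_add hadd, ih]

theorem DL_comm (hcomm : ∀ i j f, D i (D j f) = D j (D i f)) (c : ι) (w : List ι) :
    ∀ f, DL D w (D c f) = D c (DL D w f) := by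
  induction w with
  | nil => intro f; rfl
  | cons e w ih => intro f; rw [DL, DL, hcomm, ih]

theorem DL_perm (hcomm : ∀ i j f, D i (D j f) = D j (D i f)) {w w' : List ι} (h : w.Perm w') :
    ∀ f, DL D w f = DL D w' f := by
  induction h with
  | nil => intro f; rfl
  | cons c _ ih => intro f; exact ih _
  | swap c e w => intro f; rw [DL, DL, DL, DL, hcomm]
  | trans _ _ ih1 ih2 => intro f; rw [ih1, ih2]

theorem Ord.mono {N M : ℕ} {f : R} (h : Ord D ev P N f) (hM : M ≤ N) : Ord D ev P M f :=
  fun w hw hl => h w hw (by omega)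

theorem Ord.der {N : ℕ} {f : R} (h : Ord D ev P (N + 1) f) {c : ι} (hc : P c) :
    Ord D ev P N (D c f) := by
  intro w hw hl
  refine h (c :: w) ?_ ?_
  · intro e he
    rcases List.mem_cons.1 he with h1 | h1
    · rw [h1]; exact hc
    · exact hw e h1
  · rw [List.length_cons]; omega

theorem Ord.mul (hadd : ∀ i f g, D i (f + g) = D i f + D i g)
    (hmul : ∀ i f g, D i (f * g) = D i f * g + f * D i g) (N : ℕ) :
    ∀ (g f : R), Ord D ev P N f → Ord D ev P N (g * f) := by
  induction N with
  | zero => intro g f _ w _ hl; omega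
  | succ N ih =>
    intro g f h w hw hl
    match w with
    | [] =>
      have h1 : ev f = 0 := h [] (by simp) (by simp)
      rw [DL, map_mul, h1, mul_zero]
    | c :: w =>
      have hc : P c := hw c List.mem_cons_self
      have hw' : ∀ e ∈ w, P e := fun e he => hw e (List.mem_cons_of_mem _ he)
      have hl' : w.length < N := by rw [List.length_cons] at hl; omega
      rw [DL, hmul, DL_add hadd, map_add, ih _ f (h.mono (by omega)) w hw' hl',
        ih _ _ (h.der hc) w hw' hl', add_zero]

/-- the product with a function of the lowest order -/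
theorem ev_DL_mul (hadd : ∀ i f g, D i (f + g) = D i f + D i g)
    (hmul : ∀ i f g, D i (f * g) = D i f * g + f * D i g) (w : List ι) (hw : ∀ c ∈ w, P c) :
    ∀ (g f : R), Ord D ev P w.length f → ev (DL D w (g * f)) = ev g * ev (DL D w f) := by
  induction w with
  | nil => intro g f _; rw [DL, map_mul]; rfl
  | cons c w ih =>
    intro g f h
    rw [List.length_cons] at h
    have hc : P c := hw c List.mem_cons_self
    have hw' : ∀ e ∈ w, P e := fun e he => hw e (List.mem_cons_of_mem _ he)
    rw [DL, hmul, DL_add hadd, map_add, Ord.mul hadd hmul _ _ f h w hw' (by omega), zero_add,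
      ih hw' _ _ (h.der hc)]
    rfl

/-- one order below: the first factor vanishes at the origin -/
theorem ev_DL_mul_one (hadd : ∀ i f g, D i (f + g) = D i f + D i g)
    (hmul : ∀ i f g, D i (f * g) = D i f * g + f * D i g) (w : List ι) (hw : ∀ c ∈ w, P c) :
    ∀ (g f : R), ev g = 0 → Ord D ev P (w.length - 1) f → ev (DL D w (g * f)) =
      ∑ j : Fin w.length, ev (D (w.get j) g) * ev (DL D (w.eraseIdx j) f) := by
  induction w with
  | nil => intro g f hg _; rw [DL, map_mul, hg, zero_mul]; simp
  | cons c w ih =>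
    intro g f hg h
    rw [List.length_cons, Nat.add_sub_cancel] at h
    have hc : P c := hw c List.mem_cons_self
    have hw' : ∀ e ∈ w, P e := fun e he => hw e (List.mem_cons_of_mem _ he)
    have h1 : (∑ j : Fin (c :: w).length, ev (D ((c :: w).get j) g) *
        ev (DL D ((c :: w).eraseIdx j) f)) = ev (D c g) * ev (DL D w f) +
        ∑ j : Fin w.length, ev (D (w.get j) g) * ev (DL D (c :: w.eraseIdx j) f) :=
      Fin.sum_univ_succ (n := w.length) _
    rw [h1, DL, hmul, DL_add hadd, map_add, ev_DL_mul hadd hmul w hw' _ _ h]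
    congr 1
    refine ih hw' g (D c f) hg ?_
    rcases Nat.eq_zero_or_pos w.length with h2 | h2
    · rw [h2]; intro w _ hl; omega
    · have h3 : w.length = (w.length - 1) + 1 := by omega
      rw [h3] at h
      exact h.der hc

end

section

variable {R S α β : Type*} [CommRing R] [CommRing S] [Fintype α] [Fintype β] [DecidableEq β]
  (D : α ⊕ β → R → R) (ev : R →+* S) (d : α → S → S)

/-- being in a primitive direction -/
def IsPr (c : α ⊕ β) : Prop := ∃ v, c = Sum.inr v

variable {D ev d}

theorem ord_amb (hcomm : ∀ i j f, D i (D j f) = D j (D i f))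
    (hev : ∀ a f, ev (D (Sum.inl a) f) = d a (ev f)) (hd0 : ∀ a, d a 0 = 0) {N : ℕ} {f : R}
    (h : Ord D ev IsPr N f) (a : α) : Ord D ev IsPr N (D (Sum.inl a) f) := by
  intro w hw hl
  rw [DL_comm hcomm, hev, h w hw hl, hd0]

/-- **[X2, Leibniz]** the derivative along a vector field `E` which is ambient at the origin -/
theorem leib (hadd : ∀ i f g, D i (f + g) = D i f + D i g)
    (hmul : ∀ i f g, D i (f * g) = D i f * g + f * D i g)
    (hcomm : ∀ i j f, D i (D j f) = D j (D i f))
    (hev : ∀ a f, ev (D (Sum.inl a) f) = d a (ev f)) (hd0 : ∀ a, d a 0 = 0)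
    (E : α ⊕ β → R) (rho : β → S) (hE0 : ∀ v, ev (E (Sum.inr v)) = 0)
    (hE1 : ∀ v u, ev (D (Sum.inr v) (E (Sum.inr u))) = if v = u then rho v else 0)
    (w : List β) (a : R) (ha : Ord D ev IsPr w.length a) :
    ev (DL D (w.map Sum.inr) (∑ b, E b * D b a)) =
      ∑ b : α, ev (E (Sum.inl b)) * d b (ev (DL D (w.map Sum.inr) a)) +
        (w.map rho).sum * ev (DL D (w.map Sum.inr) a) := by
  classical
  have hw : ∀ c ∈ w.map (Sum.inr : β → α ⊕ β), IsPr c := by
    intro c hc
    obtain ⟨v, _, rfl⟩ := List.mem_map.1 hc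
    exact ⟨v, rfl⟩
  rw [DL_sum hadd, map_sum, Fintype.sum_sum_type]
  congr 1
  · refine Finset.sum_congr rfl fun b _ => ?_
    rw [ev_DL_mul hadd hmul _ hw _ _ (by
      rw [List.length_map]; exact ord_amb hcomm hev hd0 ha b), DL_comm hcomm, hev]
  · have h1 : ∀ u : β, ev (DL D (w.map Sum.inr) (E (Sum.inr u) * D (Sum.inr u) a)) =
        ∑ j : Fin (w.map (Sum.inr : β → α ⊕ β)).length,
          ev (D ((w.map (Sum.inr : β → α ⊕ β)).get j) (E (Sum.inr u))) *
            ev (DL D ((w.map (Sum.inr : β → α ⊕ β)).eraseIdx j) (D (Sum.inr u) a)) := by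
      intro u
      refine ev_DL_mul_one hadd hmul _ hw _ _ (hE0 u) ?_
      rw [List.length_map]
      rcases Nat.eq_zero_or_pos w.length with h2 | h2
      · rw [h2]; intro w _ hl; omega
      · have h3 : w.length = (w.length - 1) + 1 := by omega
        rw [h3] at ha
        exact ha.der ⟨u, rfl⟩
    simp only [h1]
    rw [Finset.sum_comm]
    have h2 : ∀ j : Fin (w.map (Sum.inr : β → α ⊕ β)).length,
        ∑ u : β, ev (D ((w.map (Sum.inr : β → α ⊕ β)).get j) (E (Sum.inr u))) *
            ev (DL D ((w.map (Sum.inr : β → α ⊕ β)).eraseIdx j) (D (Sum.inr u) a)) =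
          rho (w.get (Fin.cast (by simp) j)) * ev (DL D (w.map Sum.inr) a) := by
      intro j
      have e1 : (w.map (Sum.inr : β → α ⊕ β)).get j =
          Sum.inr (w.get (Fin.cast (by simp) j)) := by simp
      rw [Finset.sum_eq_single (w.get (Fin.cast (by simp) j))]
      · rw [e1, hE1, if_pos rfl]
        congr 2
        have h3 : ((w.map (Sum.inr : β → α ⊕ β)).get j ::
            (w.map (Sum.inr : β → α ⊕ β)).eraseIdx j).Perm (w.map Sum.inr) :=
          List.getElem_cons_eraseIdx_perm j.2
        have h4 := DL_perm hcomm h3 a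
        rw [DL, e1] at h4
        exact h4
      · intro u _ hu
        rw [e1, hE1, if_neg (Ne.symm hu), zero_mul]
      · simp
    simp only [h2]
    rw [← Finset.sum_mul]
    congr 1
    rw [← Fin.sum_univ_fun_getElem]
    exact Fintype.sum_equiv (finCongr (by simp)) _ _ fun j => rfl

end

end Vale.Agent.P269.G2.H980
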