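import Vale.Agent.P269.G2.H980.Basic
import Vale.Agent.P269.G1.H980.Amb
import Vale.Agent.P269.H861.LibgoberWood

/-!
# [DC1] restriction of vector fields to a family of insertions
-/

namespace Vale.Agent.P269.G2.H980

open Finset.HasAntidiagonal (antidiagonal)
open Vale.Agent.P269.CI
open Vale.Agent.P269.G1 (toSer Sym lst shf qco)
open Vale.Agent.P269.G1.H598 (toSer_add' coeff_toSer lst_zero count_lst shf_congr shf_perm)
open Vale.Agent.P269.G1.H980 (toSer_zero' toSer_sum)
open Vale.Agent.P269.H597 (coh Coh sh ev act tau pot coeff_pot genus0 sg lsg sh_cons sh_nil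
  lsg_false ev_apply sg_false_left sg_false_right)

variable {X : CompleteIntersection} {n : ℕ} (E : Fam X n) {F : ℕ → ℕ → List (Ins X) → ℂ}

/-- the data over the Novikov ring -/
noncomputable abbrev DX (X : CompleteIntersection) : Coh (PowerSeries ℂ) (Ix X) :=
  (coh X).map (PowerSeries.C : ℂ →+* PowerSeries ℂ)

/-- the series of a function of lists -/
noncomputable def tS (G : List (Ins X) → PowerSeries ℂ) : RB n := toSer fun L => G (L.map E.e)

/-- symmetric -/
def symT (G : List (Ins X) → PowerSeries ℂ) : Prop := Sym fun L : List (Fin n) => G (L.map E.e)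

theorem tS_congr {G G' : List (Ins X) → PowerSeries ℂ}
    (h : ∀ L : List (Fin n), G (L.map E.e) = G' (L.map E.e)) : tS E G = tS E G' := by
  unfold tS
  congr 1
  funext L
  exact h L

theorem tS_add (G G' : List (Ins X) → PowerSeries ℂ) :
    tS E (fun M => G M + G' M) = tS E G + tS E G' :=
  toSer_add' (fun L : List (Fin n) => G (L.map E.e)) (fun L => G' (L.map E.e))

theorem tS_zero : tS E (fun _ => 0) = 0 := toSer_zero'

theorem tS_sum {σ : Type*} (s : Finset σ) (G : σ → List (Ins X) → PowerSeries ℂ) :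
    tS E (fun M => ∑ x ∈ s, G x M) = ∑ x ∈ s, tS E (G x) :=
  toSer_sum s fun x (L : List (Fin n)) => G x (L.map E.e)

theorem tS_smul (c : ℂ) (G : List (Ins X) → PowerSeries ℂ) :
    tS E (fun M => PowerSeries.C c * G M) = c • tS E G := by
  funext α
  change ((∏ i, (α i).factorial : ℕ) : ℚ)⁻¹ • (PowerSeries.C c * G _) =
    c • (((∏ i, (α i).factorial : ℕ) : ℚ)⁻¹ • G _)
  rw [smul_comm]
  congr 1
  exact (PowerSeries.smul_eq_C_mul _ c).symm

theorem tS_neg (G : List (Ins X) → PowerSeries ℂ) :
    tS E (fun M => - G M) = - tS E G := by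
  have h := tS_smul E (-1) G
  simp only [map_neg, map_one, neg_mul, one_mul, neg_smul, one_smul] at h
  exact h

theorem tS_mul (G G' : List (Ins X) → PowerSeries ℂ) (h : symT E G) (h' : symT E G') :
    toSer (fun L => shf L (fun M : List (Fin n) => G (M.map E.e))
      (fun M => G' (M.map E.e))) = tS E G * tS E G' :=
  (Vale.Agent.P269.G1.H598.toSer_mul _ _ h h').symm

theorem cb_smul (c : ℂ) (f : RB n) : c • f = cb n c * f := by
  ext α m
  rw [cb, MvPowerSeries.coeff_C_mul, PowerSeries.coeff_C_mul]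
  rfl

theorem sr_eq (A : ℕ → List (Ins X) → ℂ) :
    sr E A = tS E fun L => PowerSeries.mk fun d => A d L := rfl

/-- correlators are symmetric -/
theorem symF_cor' (hF : IsGW X F) (he : Even X.dim) (g : ℕ) (P : List (Ins X)) :
    SymF E (cor F g P) := by
  intro d L M h
  unfold cor
  induction h generalizing P with
  | nil => rfl
  | cons x _ ih =>
    have h1 := ih (P ++ [E.e x])
    simpa using h1
  | swap x y l =>
    have h1 := hF.symm g d P (l.map E.e) (E.e y) (E.e x)
    rw [sgn_even he, one_mul] at h1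
    simpa using h1
  | trans _ _ ih1 ih2 => exact (ih1 P).trans (ih2 P)

theorem symT_cor (hF : IsGW X F) (he : Even X.dim) (g : ℕ) (P : List (Ins X)) :
    symT E fun L => PowerSeries.mk fun d => F g d (P ++ L) := by
  intro L M h
  ext d
  simpa [cor] using symF_cor' E hF he g P d L M h

theorem ip_e (he : Even X.dim) (x : Ins X) : (DX X).ip x = false := par_even he x.1

theorem sh_mul_amb (he : Even X.dim) (L : List (Fin n)) :
    ∀ C D : List (Ins X) → PowerSeries ℂ,
    sh (DX X).ip (LinearMap.mul (PowerSeries ℂ) (PowerSeries ℂ)) (L.map E.e) C D =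
      shf L (fun M => C (M.map E.e)) (fun M => D (M.map E.e)) := by
  induction L with
  | nil => intro C D; rfl
  | cons i L ih =>
    intro C D
    rw [List.map_cons, sh_cons, ih, shf]
    have h : (fun M => lsg (PowerSeries ℂ) (DX X).ip ((DX X).ip (E.e i)) M • C M) = C := by
      funext M
      rw [ip_e he, lsg_false, one_smul]
    rw [h, ih]
    rfl

theorem sh_ev_amb (he : Even X.dim) (T : Finset (Ins X)) (L : List (Fin n)) :
    ∀ (c : List (Ins X) → (Ins X →₀ PowerSeries ℂ)) (D : List (Ins X) → Ins X → PowerSeries ℂ),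
    (∀ x, x ∉ T → (∀ M : List (Fin n), c (M.map E.e) x = 0) ∨
      (∀ M : List (Fin n), D (M.map E.e) x = 0)) →
    sh (DX X).ip (ev (PowerSeries ℂ) (Ins X) (PowerSeries ℂ)) (L.map E.e) c D =
      ∑ x ∈ T, shf L (fun M => c (M.map E.e) x) (fun M => D (M.map E.e) x) := by
  induction L with
  | nil =>
    intro c D h
    exact G1.H980.ev_T T _ _ fun x hx => (h x hx).imp (fun h => h []) (fun h => h [])
  | cons i L ih =>
    intro c D h
    rw [List.map_cons, sh_cons]
    have h1 : (fun M => lsg (PowerSeries ℂ) (DX X).ip ((DX X).ip (E.e i)) M • c M) = c := by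
      funext M
      rw [ip_e he, lsg_false, one_smul]
    rw [h1, ih, ih, ← Finset.sum_add_distrib]
    · rfl
    · intro x hx
      exact (h x hx).imp (fun h M => h M) (fun h M => h (i :: M))
    · intro x hx
      exact (h x hx).imp (fun h M => h (i :: M)) (fun h M => h M)

/-- the index set of insertions of level less than `N` -/
def TT (X : CompleteIntersection) (N : ℕ) : Finset (Ins X) :=
  (Finset.range N ×ˢ (Finset.univ : Finset (Ix X))).map
    ⟨fun q => (q.2, q.1), fun q q' h => by
      obtain ⟨h1, h2⟩ := Prod.mk.inj h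
      exact Prod.ext h2 h1⟩

theorem sum_TT {M : Type*} [AddCommMonoid M] (N : ℕ) (f : Ins X → M) :
    ∑ x ∈ TT X N, f x = ∑ p ∈ Finset.range N, ∑ b : Ix X, f (b, p) := by
  rw [TT, Finset.sum_map, Finset.sum_product]
  rfl

theorem notMem_TT (N : ℕ) (x : Ins X) (hx : x ∉ TT X N) : N ≤ x.2 := by
  obtain ⟨b, m⟩ := x
  by_contra h
  apply hx
  rw [TT, Finset.mem_map]
  exact ⟨(m, b), by simpa using h, rfl⟩

/-- the action of a vector field, restricted to the family -/
theorem tS_act (he : Even X.dim) (N : ℕ) (c : List (Ins X) → (Ins X →₀ PowerSeries ℂ))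
    (G : List (Ins X) → PowerSeries ℂ)
    (hc : ∀ (M : List (Fin n)) (b : Ix X) (p : ℕ), N ≤ p → c (M.map E.e) (b, p) = 0)
    (hcs : ∀ (b : Ix X) (p : ℕ), symT E fun M => c M (b, p))
    (hGs : ∀ (b : Ix X) (p : ℕ), symT E fun M => G ((b, p) :: M)) :
    tS E (act (DX X).ip c G) = ∑ p ∈ Finset.range N, ∑ b : Ix X,
      tS E (fun M => c M (b, p)) * tS E (fun M => G ((b, p) :: M)) := by
  have h1 : ∀ L : List (Fin n), act (DX X).ip c G (L.map E.e) =
      ∑ x ∈ TT X N, shf L (fun M => c (M.map E.e) x) (fun M => G (x :: M.map E.e)) := by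
    intro L
    unfold act
    refine sh_ev_amb E he (TT X N) L c _ fun x hx => ?_
    left
    intro M
    exact hc M x.1 x.2 (notMem_TT N _ hx)
  have h2 : tS E (act (DX X).ip c G) = toSer (fun L : List (Fin n) => ∑ x ∈ TT X N,
      shf L (fun M => c (M.map E.e) x) (fun M => G (x :: M.map E.e))) := by
    unfold tS
    congr 1
    funext L
    exact h1 L
  rw [h2, toSer_sum, sum_TT]
  refine Finset.sum_congr rfl fun p _ => Finset.sum_congr rfl fun b _ => ?_
  exact tS_mul E (fun M => c M (b, p)) (fun M => G ((b, p) :: M)) (hcs b p) (hGs b p)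

end Vale.Agent.P269.G2.H980
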